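import Vale.Agent.P287Q.Mf.Api
import Vale.Agent.P287Q.Hb.PV
import Vale.Agent.P287Q.Us.Defs

/-!
# Varieties as compact orbit manifolds; projections of degree one
-/

set_option linter.unusedSectionVars false
set_option linter.style.haveILetI false

namespace Vale.Agent.P287Q

open Set Function Topology Filter Module P291Z P269 P269.Holo P269.Mono P269.Coh P269.Tq
open P269.Tq.QMA

namespace Mf

variable {A A' W W' : Type} [NormedRing A] [NormedAlgebra ℂ A] [NormedAddCommGroup W]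
  [NormedSpace ℂ W] [NormedRing A'] [NormedAlgebra ℂ A'] [NormedAddCommGroup W'] [NormedSpace ℂ W']
  [FiniteDimensional ℂ A] [FiniteDimensional ℂ W] [FiniteDimensional ℂ A'] [FiniteDimensional ℂ W']
  {act : A → W → W} {act' : A' → W' → W'} {S : Set W} {S' : Set W'} {f : W → W'} {θ : A → A'}
  [IsAct act univ] [IsAct act' univ] {n : ℤ}

/-- **A map that is bijective over an open set meeting every component has degree one.** -/
theorem J_map_open (h : QM act S n) (h' : QM act' S' n) (φ : Tq.Hol act act' S S' θ f)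
    {C : Set (Quo act' S')} (hC : IsClosed C) (hD : ∀ T, IsClopen T → Cᶜ ⊆ T → T = univ)
    (inj : InjOn φ.q (φ.q ⁻¹' C)ᶜ) (surj : Cᶜ ⊆ range φ.q) (b : H (Quo act' S')) :
    h.ps.J (H.map φ.q b) = h'.ps.J b := by
  have := h.fp
  have := h'.fp
  have := h.fp.lc
  have := h.cpt
  have := h'.cpt
  have := FiniteDimensional.complete ℂ W
  let U := {x | ∃ hx : x ∈ S, φ.q (Quo.mk act ⟨x, hx⟩) ∉ C}
  have eU : U ⊆ S := fun x hx => hx.1
  have hU : IsOpen (Subtype.val ⁻¹' U : Set S) := by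
    rw [show (Subtype.val ⁻¹' U : Set S) = (fun x => φ.q (Quo.mk act x)) ⁻¹' Cᶜ from
      Set.ext fun x => ⟨fun h => h.2, fun h => ⟨x.2, h⟩⟩]
    exact hC.isOpen_compl.preimage (φ.q.continuous.comp continuous_mk)
  have := fp_sub h.fp eU (fun a ha x hx => ⟨h.fp.mem a ha x hx.1, by
    rw [mk_act ha hx.1]; exact hx.2⟩) (IsOpenEmbedding.inclusion eU hU).locallyCompactSpace
  have hd : Dim act U n.toNat := fun x hx => (h.dim x hx.1).congr
    (((ev_sub hx.1 (p := fun s => s ∈ U)).1 (hU.mem_nhds hx)).mono fun s k => ⟨k, @eU s⟩)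
  have hj := isOpenEmbedding_qinc (act := act) eU hU
  have hr : range (qinc act eU) = (φ.q ⁻¹' C)ᶜ :=
    Set.ext (Sp.surjective_mk.forall.2 fun x =>
      (mk_mem_range_qinc eU).trans ⟨fun h => h.2, fun h => ⟨x.val_mem, h⟩⟩)
  obtain ⟨h1, h2⟩ := oemb φ.q.continuous hC hj hr inj surj
  have h3 : ⇑(φ.mono eU (φ.maps.mono_left eU)).q = φ.q ∘ qinc act eU :=
    funext (mk_surj.forall.2 fun _ => rfl)
  have h4 := res_fnd hd h'.dim h'.lin _ (h3 ▸ h1)
  show Loc.intg (fnd act S) (H.map φ.q b) = Loc.intg (fnd act' S') b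
  rw [← Loc.intg_push, h'.ori.eq_of_res (h.ori.deg.push _) h'.ori.deg h1 (h2 ▸ hD) ?_]
  rw [res_push h1 hj (IsPr.of_compact φ.q.continuous) IsPr.id (fun _ => rfl) (by rw [h2, hr]; rfl),
    push_id', ← h3, h4]
  exact res_fnd hd h.dim h.lin (Tq.Hol.incl eU) hj

theorem connected_quo (h : IsConnected S) : ConnectedSpace (Quo act S) :=
  haveI := Subtype.connectedSpace h
  mk_surj.connectedSpace continuous_mk

end Mf

variable {n m : ℕ}

namespace Var

variable (V : Var n)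

instance isAct : IsAct (scl V.π) univ := isAct_scl V.π

theorem qm : QM (scl V.π) V.A n := V.pv.qm

instance fp : FP (scl V.π) V.A := V.pv.fp

instance cpt : CompactSpace (Spc V.π V.A) := V.pv.compact

instance cnn : ConnectedSpace (Spc V.π V.A) := Mf.connected_quo V.conn

/-- The space with its integral. -/
@[reducible] noncomputable def ps : PS := V.qm.ps

/-- The types. -/
noncomputable abbrev T : ℤ → ℤ → Submodule ℂ (H (Spc V.π V.A)) := Hb.QT (scl V.π) V.A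

theorem T_nat (p q : ℕ) : V.T p q = Hb.HN V.A (Quo.mk (scl V.π)) p q := Hb.HT_nat _ _ p q

end Var

namespace Ext

variable {V : Var n} {W : Var m} (f : Ext V W)

theorem hol : Tq.Hol (scl V.π) (scl W.π) V.A W.A (fun t => t ∘ f.iR) fun w => w ∘ f.iJ :=
  hol_coord f.iJ f.iR f.blk f.map

theorem map_HN {p q : ℕ} {c : H (Spc W.π W.A)} (hc : c ∈ Hb.HN W.A (Quo.mk (scl W.π)) p q) :
    H.map f.hol.q c ∈ Hb.HN V.A (Quo.mk (scl V.π)) p q :=
  Mf.IsHd.pull_lift' (fun x hx => ⟨_, V.pv.mfd x hx⟩) _ (Mf.holM_of_hol f.hol) hc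

theorem map_T {p q : ℤ} {c : H (Spc W.π W.A)} (hc : c ∈ W.T p q) : H.map f.hol.q c ∈ V.T p q :=
  Mf.map_mem_QT V.qm f.hol hc

variable {O : Set (W.J → ℂ)} {s : (W.J → ℂ) → V.J → ℂ} (h : Sct W.π V.π V.A f.iJ O s)
  (hO : ∀ t, IsUnit t → ∀ x ∈ O, scl W.π t x ∈ O)
include h hO

theorem sct_inj {x y : V.A} (hx : x.1 ∘ f.iJ ∈ O)
    (e : f.hol.q (Quo.mk _ x) = f.hol.q (Quo.mk _ y)) :
    Quo.mk (scl V.π) x = Quo.mk (scl V.π) y := by
  obtain ⟨t, ht, e1⟩ : ∃ t, IsUnit t ∧ y.1 ∘ f.iJ = scl W.π t (x.1 ∘ f.iJ) := W.pv.mk_eq_iff.1 e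
  have hy : y.1 ∘ f.iJ ∈ O := e1 ▸ hO t ht _ hx
  obtain ⟨d, hd⟩ := h.eqv
  have k : ∀ z : V.A, ∀ hz : z.1 ∘ f.iJ ∈ O,
      Quo.mk (scl V.π) ⟨_, h.mem _ hz⟩ = Quo.mk (scl V.π) z :=
    fun z hz => Quot.sound (h.orb z z.2 hz)
  rw [← k x hx, ← k y hy]
  exact Quot.sound ⟨fun r => ∏ r₀, t r₀ ^ d r r₀, unit_iff.2 fun r => Finset.prod_ne_zero_iff.2
    fun r₀ _ => zpow_ne_zero (d r r₀) (unit_iff.1 ht r₀), (congrArg s e1).trans (hd t ht _ hx)⟩

end Ext

namespace Ext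

variable {V W : Var n} (f : Ext V W)

/-- A projection with a section over a nonempty invariant open set has degree one. -/
theorem sct_int {O : Set (W.J → ℂ)} {s : (W.J → ℂ) → V.J → ℂ} (h : Sct W.π V.π V.A f.iJ O s)
    (hO : ∀ t, IsUnit t → ∀ x ∈ O, scl W.π t x ∈ O) (e : O ⊆ W.A)
    (ho : IsOpen (Subtype.val ⁻¹' O : Set W.A)) (hne : O.Nonempty) (b : H (Spc W.π W.A)) :
    V.ps.J (H.map f.hol.q b) = W.ps.J b := by
  have := QMA.fp_sub W.fp e hO
    (haveI := W.fp.lc; (IsOpenEmbedding.inclusion e ho).locallyCompactSpace)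
  have h1 : ∀ x : W.A, Quo.mk (scl W.π) x ∈ range (qinc (scl W.π) e) ↔ x.1 ∈ O := fun x =>
    mk_mem_range_qinc e (x := Sp.of _ x.1 x.2)
  refine Mf.J_map_open V.qm W.qm f.hol (C := (range (qinc (scl W.π) e))ᶜ)
    (isOpenEmbedding_qinc e ho).isOpen_range.isClosed_compl (fun T hT k => ?_) ?_ ?_ b
  · obtain ⟨x, hx⟩ := hne
    exact hT.eq_univ ⟨_, k (not_not.2 ((h1 ⟨x, e hx⟩).2 hx))⟩
  · exact mk_surj.forall.2 fun x hx => mk_surj.forall.2 fun y _ k =>
      f.sct_inj h hO ((h1 _).1 (not_not.1 hx)) k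
  · refine mk_surj.forall.2 fun x hx => ?_
    have h2 := (h1 x).1 (not_not.1 hx)
    exact ⟨Quo.mk _ ⟨_, h.mem _ h2⟩, congrArg (Quo.mk _) (Subtype.ext (h.inv _ h2))⟩

/-- **Birational projections have degree one.** -/
theorem Bir.int {f : Ext V W} (h : f.Bir) (b : H (Spc W.π W.A)) :
    V.ps.J (H.map f.hol.q b) = W.ps.J b := by
  obtain ⟨μ, G, -, s, h1, -, h2, x, h3⟩ := h
  refine f.sct_int h2 (fun t ht y hy => ⟨W.pv.inv t ht y hy.1, ?_⟩) (fun _ k => k.1) ?_ ⟨x, h3⟩ b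
  · rw [h1.hom t ht]
    exact mul_ne_zero (Finset.prod_ne_zero_iff.2 fun r _ => pow_ne_zero _ (unit_iff.1 ht r)) hy.2
  · rw [show (Subtype.val ⁻¹' {x | x ∈ W.A ∧ G x ≠ 0} : Set W.A) = {y | G y.1 ≠ 0} from
      Set.ext fun y => and_iff_right y.2]
    exact isOpen_ne_fun ((continuous_iff_continuousAt.2 fun y => (h1.an y).continuousAt).comp
      continuous_subtype_val) continuous_const

theorem Iso.int {f : Ext V W} (h : f.Iso) (b : H (Spc W.π W.A)) :
    V.ps.J (H.map f.hol.q b) = W.ps.J b := by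
  obtain ⟨s, h⟩ := h
  exact f.sct_int h W.pv.inv subset_rfl (by simp) W.conn.nonempty b

theorem Iso.bij {f : Ext V W} (h : f.Iso) : Bijective f.hol.q := by
  obtain ⟨s, h⟩ := h
  exact ⟨mk_surj.forall₂.2 fun x y k => f.sct_inj h W.pv.inv (f.map _ x.2) k,
    mk_surj.forall.2 fun x =>
      ⟨Quo.mk _ ⟨_, h.mem _ x.2⟩, congrArg (Quo.mk _) (Subtype.ext (h.inv _ x.2))⟩⟩

end Ext

end Vale.Agent.P287Q
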