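import Vale.Agent.P287Q.Pv.Defs

/-!
# Hodge types of cohomology classes: in charts and on a cone (definitions)
-/

namespace Vale.Agent.P287Q.Mf

open Set Function Topology Filter P291Z
open scoped ContDiff ComplexConjugate

variable {E W : Type} [NormedAddCommGroup E] [NormedSpace ℂ E] [NormedAddCommGroup W]
  [NormedSpace ℂ W] {X : Type} [TopologicalSpace X]

/-- The de Rham form of a function of `k + 1` points (this is `P269.Hdg.form`). -/
noncomputable def frm {k : ℕ} (f : (Fin (k + 1) → E) → ℂ) (x : E) (v : Fin k → E) : ℂ :=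
  ∑ σ : Equiv.Perm (Fin k), ((Equiv.Perm.sign σ : ℤ) : ℂ) *
    iteratedFDeriv ℝ k f (fun _ => x) fun i => Pi.single i.succ (v (σ i))

/-- The cochain `a` is smooth near the diagonal at `x` in the coordinates `e`, and its form has
type `(p, q)` there. -/
def HgAt (p q : ℕ) (a : Coch X) (e : X → E) (x : X) : Prop :=
  ∃ f : (Fin (p + q + 1) → E) → ℂ, ContDiff ℝ ∞ f ∧
    (∀ᶠ y : Fin (p + q + 1) → X in 𝓝 fun _ => x, a.1 (List.ofFn y) = f fun i => e (y i)) ∧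
    ∀ (t : ℂ) (v : Fin (p + q) → E), frm f (e x) (t • v) = t ^ p * conj t ^ q * frm f (e x) v

/-- `c ∈ H^{p,q}(X)` for a complex manifold `X` of dimension `n`. -/
def IsHg (n : ℕ) [ChartedSpace (Fin n → ℂ) X] (p q : ℕ) (c : H X) : Prop :=
  ∃ a : Zs X, IsDeg (p + q : ℕ) a.1 ∧ H.mk a = c ∧
    ∀ x, HgAt p q a.1 (chartAt (Fin n → ℂ) x) x

/-- The same on a cone `A` with tangent spaces `T` and projection `π`. -/
def HdAt {A : Set W} (T : W → Set W) (π : A → X) (p q : ℕ) (a : Coch X) (x : A) : Prop :=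
  ∃ f : (Fin (p + q + 1) → W) → ℂ, ContDiff ℝ ∞ f ∧
    (∀ᶠ y : Fin (p + q + 1) → A in 𝓝 fun _ => x,
      a.1 (List.ofFn fun i => π (y i)) = f fun i => (y i).1) ∧
    ∀ (t : ℂ) (v : Fin (p + q) → W), (∀ i, v i ∈ T x.1) →
      frm f x.1 (t • v) = t ^ p * conj t ^ q * frm f x.1 v

/-- `c ∈ H^{p,q}(X)` for a quotient `π : A → X` (this is `P269.Hdg.IsHodge`). -/
def IsHd {A : Set W} (T : W → Set W) (π : A → X) (p q : ℕ) (c : H X) : Prop :=
  ∃ a : Zs X, IsDeg (p + q : ℕ) a.1 ∧ H.mk a = c ∧ ∀ x, HdAt T π p q a.1 x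

/-- `π : A → X` is a surjective holomorphic submersion onto the complex manifold `X`. -/
structure Pres (n : ℕ) [ChartedSpace (Fin n → ℂ) X] {A : Set W} (π : A → X) : Prop where
  cont : Continuous π
  surj : Surjective π
  sec : ∀ y : A, ∃ σ : (Fin n → ℂ) → W, AnalyticAt ℂ σ (chartAt (Fin n → ℂ) (π y) (π y)) ∧
    σ (chartAt (Fin n → ℂ) (π y) (π y)) = y ∧
    ∀ᶠ x in 𝓝 (π y), ∃ h : σ (chartAt (Fin n → ℂ) (π y) x) ∈ A, π ⟨_, h⟩ = x
  prj : ∀ y : A, ∃ p : W → Fin n → ℂ, AnalyticAt ℂ p y ∧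
    ∀ᶠ z in 𝓝 y, p z.1 = chartAt (Fin n → ℂ) (π y) (π z)

/-- The map `f` of complex manifolds is holomorphic. -/
def Hol (n m : ℕ) [ChartedSpace (Fin n → ℂ) X] {Y : Type} [TopologicalSpace Y]
    [ChartedSpace (Fin m → ℂ) Y] (f : X → Y) : Prop :=
  Continuous f ∧ ∀ x, AnalyticAt ℂ
    (fun z => chartAt (Fin m → ℂ) (f x) (f ((chartAt (Fin n → ℂ) x).symm z)))
    (chartAt (Fin n → ℂ) x x)

/-- The centred chart at `x`. -/
noncomputable def cch (n : ℕ) [ChartedSpace (Fin n → ℂ) X] (x : X) (z : Fin n → ℂ) : X :=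
  (chartAt (Fin n → ℂ) x).symm (z + chartAt (Fin n → ℂ) x x)

end Vale.Agent.P287Q.Mf
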