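import Vale.Agent.P287Q.Mf.Defs
import Vale.Agent.P269.Prj.Quo

/-!
# The orbit space of a free proper holomorphic action as a complex manifold
-/

set_option linter.unusedSectionVars false
set_option linter.style.haveILetI false

namespace Vale.Agent.P287Q.Mf

open Set Function Topology Filter Module P291Z P269 P269.Holo P269.Mono P269.Tq
open scoped Manifold ContDiff

variable {A W : Type} [NormedRing A] [NormedAlgebra ℂ A] [NormedAddCommGroup W] [NormedSpace ℂ W]
  [FiniteDimensional ℂ A] [FiniteDimensional ℂ W] {act : A → W → W} {S : Set W} [FP act S] {n : ℕ}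

/-- A holomorphic slice. -/
def Sl (φ : (Fin n → ℂ) → Sp act S) (y : Fin n → ℂ) : Prop :=
  haveI := FiniteDimensional.complete ℂ A
  IsSlK (expU : A → Aˣ) Sp.val φ y

/-- The inverse of the chart `e` is a holomorphic slice. -/
def Gd (e : OpenPartialHomeomorph (Quo act S) (Fin n → ℂ)) : Prop :=
  ∃ φ : (Fin n → ℂ) → Sp act S, ∀ y ∈ e.target, Sl φ y ∧ e.symm y = (φ y).mk

namespace Sl

variable {φ : (Fin n → ℂ) → Sp act S} {y : Fin n → ℂ} (h : Sl φ y)
include h

theorem an : AnalyticAt ℂ (fun z => (φ z).val) y :=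
  haveI := FiniteDimensional.complete ℂ A
  IsSlK.an isExp_expU h

theorem ev : ∀ᶠ z in 𝓝 y, Sl φ z :=
  haveI := FiniteDimensional.complete ℂ A
  haveI := FiniteDimensional.complete ℂ W
  IsSlK.eventually h

theorem lh : LH (fun z => (φ z).mk) y :=
  haveI := FiniteDimensional.complete ℂ A
  LH.quot Sp.isOpenQuotientMap_mk (fun _ _ => Sp.mk_eq_iff) (IsSlK.isSl isExp_expU h).1
    (FP.free _)

/-- A slice is the inverse of a chart. -/
theorem exists_gd : ∃ e : OpenPartialHomeomorph (Quo act S) (Fin n → ℂ), Gd e ∧ y ∈ e.target ∧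
    ∀ z, e.symm z = (φ z).mk := by
  obtain ⟨e, h1, h2⟩ := h.lh.exists
  obtain ⟨V, h3, h4, h5⟩ := eventually_nhds_iff.1 h.ev
  exact ⟨(e.restrOpen V h4).symm, ⟨φ, fun z hz => ⟨h3 z hz.2, (congrFun h2 z).symm⟩⟩, ⟨h1, h5⟩,
    fun z => (congrFun h2 z).symm⟩

/-- The local projection to a slice. -/
theorem prj {x : Sp act S} (e : x.mk = (φ y).mk) : ∃ p : W → Fin n → ℂ, AnalyticAt ℂ p x.val ∧
    p x.val = y ∧ ∀ᶠ z in 𝓝 x, (φ (p z.val)).mk = z.mk := by
  haveI := FiniteDimensional.complete ℂ A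
  obtain ⟨g, hg⟩ := Sp.mk_eq_iff.1 e
  obtain ⟨w, h1, h2, -, h3, -⟩ := IsSlK.exists_inv isExp_expU h
  rw [← hg] at h1 h2 h3
  have h4 : AnalyticAt ℂ (act g) x.val :=
    (IsAct.an (act := act) (S := S) _ g.isUnit _ x.val_mem).comp
      (f := fun z => ((g : A), z)) (analyticAt_const.prod analyticAt_id)
  refine ⟨fun z => (w (act g z)).2, analyticAt_snd.comp
    (AnalyticAt.comp (g := w) (f := act g) (x := x.val) h1 h4), congrArg Prod.snd h2, ?_⟩
  filter_upwards [(continuous_const_smul g).continuousAt.eventually h3] with z hz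
  rw [← Sp.mk_smul g z, ← hz, Sp.mk_smul]
  rfl

end Sl

namespace Gd

variable {e e' : OpenPartialHomeomorph (Quo act S) (Fin n → ℂ)} (h : Gd e)
include h

theorem prj {x : Sp act S} (hx : x.mk ∈ e.source) : ∃ p : W → Fin n → ℂ, AnalyticAt ℂ p x.val ∧
    ∀ᶠ z in 𝓝 x, p z.val = e z.mk := by
  obtain ⟨φ, h⟩ := h
  have h1 := h _ (e.map_source hx)
  obtain ⟨p, h2, h3, h4⟩ := h1.1.prj (x := x) ((e.left_inv hx).symm.trans h1.2)
  refine ⟨p, h2, ?_⟩
  have h5 : ∀ᶠ z in 𝓝 x, p z.val ∈ e.target :=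
    (h2.continuousAt.comp Sp.continuous_val.continuousAt).eventually
      (e.open_target.mem_nhds (by rw [Function.comp, h3]; exact e.map_source hx))
  filter_upwards [h4, h5] with z h6 h7
  rw [← h6, ← (h _ h7).2, e.right_inv h7]

theorem sec {x : Sp act S} (hx : x.mk ∈ e.source) : ∃ σ : (Fin n → ℂ) → Sp act S,
    AnalyticAt ℂ (fun z => (σ z).val) (e x.mk) ∧ σ (e x.mk) = x ∧
      ∀ z ∈ e.target, (σ z).mk = e.symm z := by
  obtain ⟨φ, h⟩ := h
  have h1 := h _ (e.map_source hx)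
  obtain ⟨g, hg⟩ := Sp.mk_eq_iff.1 (h1.2.symm.trans (e.left_inv hx))
  refine ⟨fun z => g • φ z, ?_, hg, fun z hz => (Sp.mk_smul g _).trans (h z hz).2.symm⟩
  exact (IsAct.an (act := act) (S := S) _ g.isUnit _ (φ _).val_mem).comp
    (f := fun z => ((g : A), (φ z).val)) (analyticAt_const.prod h1.1.an)

theorem trans (h' : Gd e') {x : Quo act S} (hx : x ∈ e.source) (hx' : x ∈ e'.source) :
    AnalyticAt ℂ (fun z => e' (e.symm z)) (e x) := by
  obtain ⟨x, rfl⟩ := Sp.surjective_mk x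
  obtain ⟨σ, h1, h2, h3⟩ := h.sec hx
  obtain ⟨p, h4, h5⟩ := h'.prj hx'
  have h6 : Tendsto σ (𝓝 (e x.mk)) (𝓝 x) := by
    have := Sp.isEmbedding_val.isInducing.continuousAt_iff.2 h1.continuousAt
    rwa [ContinuousAt, h2] at this
  refine (AnalyticAt.comp (g := p) (f := fun z => (σ z).val) (by rwa [h2]) h1).congr ?_
  filter_upwards [h6.eventually h5, e.open_target.mem_nhds (e.map_source hx)] with z h7 h8
  rw [← h3 z h8, ← h7]
  rfl

end Gd

variable [IsAct act univ]

theorem exists_sl (h : Dim act S n) (x : Sp act S) :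
    ∃ φ : (Fin n → ℂ) → Sp act S, φ 0 = x ∧ Sl φ 0 :=
  haveI := FiniteDimensional.complete ℂ A
  haveI := FiniteDimensional.complete ℂ W
  Sp.exists_slK (h.isMfd x) (FP.finite x) rfl

theorem exists_gd (h : Dim act S n) (x : Quo act S) :
    ∃ e : OpenPartialHomeomorph (Quo act S) (Fin n → ℂ), Gd e ∧ x ∈ e.source := by
  obtain ⟨x, rfl⟩ := Sp.surjective_mk x
  obtain ⟨φ, rfl, h1⟩ := exists_sl h x
  obtain ⟨e, h2, h3, h4⟩ := h1.exists_gd
  exact ⟨e, h2, h4 0 ▸ e.map_target h3⟩

/-- The atlas of all holomorphic slices. -/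
@[reducible] noncomputable def cs (h : Dim act S n) : ChartedSpace (Fin n → ℂ) (Quo act S) where
  atlas := {e | Gd e}
  chartAt x := (exists_gd h x).choose
  mem_chart_source x := (exists_gd h x).choose_spec.2
  chart_mem_atlas x := (exists_gd h x).choose_spec.1

variable (h : Dim act S n)

theorem gd_chartAt (x : Quo act S) : Gd (@chartAt (Fin n → ℂ) _ _ _ (cs h) x) :=
  (exists_gd h x).choose_spec.1

theorem isManifold : letI := cs h; IsManifold 𝓘(ℂ, Fin n → ℂ) ω (Quo act S) := by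
  letI := cs h
  refine isManifold_of_contDiffOn _ _ _ fun e e' he he' z hz => ?_
  have := Gd.trans he he' (e.map_target hz.1.1) hz.1.2
  rw [e.right_inv hz.1.1] at this
  exact this.contDiffAt.contDiffWithinAt

theorem pres : letI := cs h; Pres n (Quo.mk act : S → Quo act S) := by
  letI := cs h
  refine ⟨continuous_mk, mk_surj, fun y => ?_, fun y => ?_⟩
  · have h0 := mem_chart_source (Fin n → ℂ) (Quo.mk act y)
    obtain ⟨σ, h1, h2, h3⟩ := (gd_chartAt h _).sec (x := y) h0
    refine ⟨_, h1, congrArg Sp.val h2, ?_⟩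
    filter_upwards [chart_source_mem_nhds (Fin n → ℂ) (Quo.mk act y)] with x hx
    exact ⟨Sp.val_mem _, (h3 _ (OpenPartialHomeomorph.map_source _ hx)).trans
      (OpenPartialHomeomorph.left_inv _ hx)⟩
  · exact (gd_chartAt h _).prj (x := y) (mem_chart_source (Fin n → ℂ) (Quo.mk act y))

/-- The fundamental class in the centred charts. -/
theorem val_fnd (x : Quo act S) : letI := cs h; Orb.Val (fnd act S) (cch n x) 1 := by
  letI := cs h
  haveI := FiniteDimensional.complete ℂ A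
  haveI := FP.lc (act := act) (S := S)
  obtain ⟨φ, h1⟩ := gd_chartAt h x
  have h0 := mem_chart_target (Fin n → ℂ) x
  have h2 : IsSlK (expU : A → Aˣ) Sp.val (fun z => φ (z + chartAt (Fin n → ℂ) x x)) 0 :=
    IsSlK.comp (u := fun z => z + chartAt (Fin n → ℂ) x x) (by rw [zero_add]; exact (h1 _ h0).1)
      (analyticAt_id.add analyticAt_const) (by rw [fderiv_add_const, fderiv_fun_id]; exact bijective_id)
  refine (h.isFund.val (h2.isSl isExp_expU) (FP.free _)).2.congr ?_
  have h3 : ∀ᶠ z in 𝓝 (0 : Fin n → ℂ), z + chartAt (Fin n → ℂ) x x ∈ (chartAt (Fin n → ℂ) x).target :=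
    (continuous_add_const _).continuousAt.eventually
      ((chartAt (Fin n → ℂ) x).open_target.mem_nhds (by simpa only [zero_add] using h0))
  filter_upwards [h3] with z hz using (h1 _ hz).2.symm

end Vale.Agent.P287Q.Mf
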