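import Vale.Agent.P287Q.Mf.Iff
import Vale.Agent.P287Q.Mf.Quo
import Vale.Agent.P287Q.Hb.Defs

/-!
# Hodge types: pull-back along lifted maps, conjugation, orbit spaces
-/

set_option linter.unusedSectionVars false

namespace Vale.Agent.P287Q.Mf

open Set Function Topology Filter P291Z P269 P269.Holo P269.Mono P269.Tq
open scoped ContDiff ComplexConjugate Manifold

section cj

variable {W Y : Type} [NormedAddCommGroup W] [NormedSpace ℂ W] [TopologicalSpace Y] {p q : ℕ}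

theorem frm_conj {k : ℕ} {f : (Fin (k + 1) → W) → ℂ} (hf : ContDiff ℝ ∞ f) (x : W)
    (v : Fin k → W) : frm (fun y => conj (f y)) x v = conj (frm f x v) := by
  have e := (Complex.conjCLE : ℂ →L[ℝ] ℂ).iteratedFDeriv_comp_left (x := fun _ => x) (i := k)
    hf.contDiffAt (by exact_mod_cast le_top)
  simp only [frm, map_sum, map_mul, map_intCast]
  refine Finset.sum_congr rfl fun σ _ => congrArg _ ?_
  exact congrArg (fun L => L fun i => Pi.single i.succ (v (σ i))) e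

/-- `HdAt` with an arbitrary degree and character. -/
def HdK {S : Set W} (T : W → Set W) (π : S → Y) (k : ℕ) (χ : ℂ → ℂ) (a : Coch Y) (x : S) : Prop :=
  ∃ f : (Fin (k + 1) → W) → ℂ, ContDiff ℝ ∞ f ∧
    (∀ᶠ y : Fin (k + 1) → S in 𝓝 fun _ => x,
      a.1 (List.ofFn fun i => π (y i)) = f fun i => (y i).1) ∧
    ∀ (t : ℂ) (v : Fin k → W), (∀ i, v i ∈ T x.1) → frm f x.1 (t • v) = χ t * frm f x.1 v

theorem HdAt.cj {S : Set W} {T : W → Set W} {π : S → Y} {a : Coch Y} {x : S}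
    (h : HdAt T π p q a x) : HdAt T π q p (cjC a) x := by
  obtain ⟨f, h1, h2, h3⟩ := h
  have : HdK T π (p + q) (fun t => t ^ q * conj t ^ p) (cjC a) x :=
    ⟨fun y => conj (f y), (Complex.conjCLE : ℂ →L[ℝ] ℂ).contDiff.comp h1,
      h2.mono fun _ e => congrArg conj e, fun t v hv => by
        rw [frm_conj h1, frm_conj h1, h3 t v hv]
        simp only [map_mul, map_pow, Complex.conj_conj]
        ring⟩
  rw [Nat.add_comm p q] at this
  exact this

/-- **Conjugation swaps the types.** -/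
theorem IsHd.cj {S : Set W} {T : W → Set W} {π : S → Y} {c : H Y} (h : IsHd T π p q c) :
    IsHd T π q p (cj c) := by
  obtain ⟨a, h1, rfl, h2, h3⟩ := Hb.isHd_iff.1 h
  exact Hb.isHd_iff.2 ⟨cjC a, cocycle_cjC h1, (cj_hcls h1).symm,
    Nat.add_comm p q ▸ isDeg_cjC h2, fun x => (h3 x).cj⟩

/-- `HgAt` with an arbitrary degree and character. -/
def HgK (k : ℕ) (χ : ℂ → ℂ) (a : Coch Y) (e : Y → W) (x : Y) : Prop :=
  ∃ f : (Fin (k + 1) → W) → ℂ, ContDiff ℝ ∞ f ∧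
    (∀ᶠ y : Fin (k + 1) → Y in 𝓝 fun _ => x, a.1 (List.ofFn y) = f fun i => e (y i)) ∧
    ∀ (t : ℂ) (v : Fin k → W), frm f (e x) (t • v) = χ t * frm f (e x) v

theorem HgAt.cj {a : Coch Y} {e : Y → W} {x : Y} (h : HgAt p q a e x) :
    HgAt q p (cjC a) e x := by
  obtain ⟨f, h1, h2, h3⟩ := h
  have : HgK (p + q) (fun t => t ^ q * conj t ^ p) (cjC a) e x :=
    ⟨fun y => conj (f y), (Complex.conjCLE : ℂ →L[ℝ] ℂ).contDiff.comp h1,
      h2.mono fun _ e => congrArg conj e, fun t v => by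
        rw [frm_conj h1, frm_conj h1, h3 t v]
        simp only [map_mul, map_pow, Complex.conj_conj]
        ring⟩
  rw [Nat.add_comm p q] at this
  exact this

theorem IsHg.cj {n : ℕ} [ChartedSpace (Fin n → ℂ) Y] {c : H Y} (h : IsHg n p q c) :
    IsHg n q p (cj c) := by
  obtain ⟨a, h1, rfl, h2⟩ := h
  exact ⟨⟨cjC a.1, cocycle_cjC a.2⟩, Nat.add_comm p q ▸ isDeg_cjC h1,
    (hcls_val _).symm.trans ((cj_hcls a.2).symm.trans (congrArg _ (hcls_val a))),
    fun x => (h2 x).cj⟩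

theorem IsHd.isDeg {S : Set W} {T : W → Set W} {π : S → Y} {c : H Y} (h : IsHd T π p q c) :
    H.IsDeg (p + q : ℕ) c := by
  obtain ⟨a, -, rfl, h2, -⟩ := Hb.isHd_iff.1 h
  exact hcls_isDeg h2

theorem IsHg.isDeg {n : ℕ} [ChartedSpace (Fin n → ℂ) Y] {c : H Y} (h : IsHg n p q c) :
    H.IsDeg (p + q : ℕ) c := by
  obtain ⟨a, h1, rfl, -⟩ := h
  exact hcls_val a ▸ hcls_isDeg h1

theorem IsHd.mono {S : Set W} {T T' : W → Set W} {π : S → Y} {c : H Y} (h : IsHd T π p q c)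
    (e : ∀ x ∈ S, T' x ⊆ T x) : IsHd T' π p q c := by
  obtain ⟨a, h1, h2, h3⟩ := h
  exact ⟨a, h1, h2, fun x => (h3 x).imp fun _ k =>
    ⟨k.1, k.2.1, fun t v hv => k.2.2 t v fun i => e _ x.2 (hv i)⟩⟩

end cj

section lift

variable {W W' Y Y' : Type} [NormedAddCommGroup W] [NormedSpace ℂ W] [NormedAddCommGroup W']
  [NormedSpace ℂ W'] [FiniteDimensional ℂ W] [FiniteDimensional ℂ W'] [TopologicalSpace Y]
  [TopologicalSpace Y'] {S : Set W} {S' : Set W'} {π : S → Y} {π' : S' → Y'} {p q : ℕ}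

theorem HdAt.lift {x : S} {k : ℕ} (hS : MfdAt S k x) {g : Y → Y'} {Φ : W → W'}
    (hΦ : AnalyticAt ℂ Φ x) (h : ∀ᶠ y : S in 𝓝 x, ∃ h : Φ y ∈ S', g (π y) = π' ⟨Φ y, h⟩)
    {a : Coch Y'} {h0 : Φ x ∈ S'} (ha : HdAt (fun x => tn S' x) π' p q a ⟨Φ x, h0⟩) :
    HdAt (fun x => tn S x) π p q (pull g a) x := by
  classical
  have := FiniteDimensional.complete ℂ W'
  obtain ⟨F, h1, h2, h3⟩ := ha
  obtain ⟨f, h4, h5, h6⟩ := exists_comp hΦ h1
  let s : S → S' := fun y => if h : Φ y ∈ S' then ⟨_, h⟩ else ⟨_, h0⟩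
  have h7 : ∀ᶠ y in 𝓝 x, (s y).1 = Φ y ∧ π' (s y) = g (π y) := h.mono fun y ⟨k1, k2⟩ => by
    simp only [s, dif_pos k1, k2, and_self]
  have h8 : Tendsto s (𝓝 x) (𝓝 ⟨_, h0⟩) := tendsto_subtype_rng.2
    ((hΦ.continuousAt.tendsto.comp continuous_subtype_val.continuousAt.tendsto).congr'
      (h7.mono fun _ k => k.1.symm))
  refine ⟨f, h4, ?_, fun t v hv => ?_⟩
  · filter_upwards [(tendsto_diag h8).eventually h2,
      (tendsto_diag continuous_subtype_val.continuousAt.tendsto).eventually h5, ev_diag h7]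
      with z k1 k2 k3
    rw [k2, ← funext fun i => (k3 i).1, ← k1, funext fun i => (k3 i).2]
    exact congrArg a.1 (List.map_ofFn ..)
  · rw [h6, h6, ← h3 _ _ fun i => fderiv_map_tn hS hΦ
      ((ev_sub x.2 (p := fun s => Φ s ∈ S')).1 (h.mono fun _ k => k.1)) (hv i)]
    simp only [Pi.smul_apply, map_smul]
    rfl

theorem IsHd.pull_lift' (hS : ∀ x ∈ S, ∃ k, MfdAt S k x) (g : C(Y, Y'))
    (hg : Hb.HolM S π S' π' g) {c : H Y'} (h : IsHd (fun x => tn S' x) π' p q c) :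
    IsHd (fun x => tn S x) π p q (H.map g c) := by
  obtain ⟨a, h1, rfl, h2⟩ := h
  refine ⟨⟨P291Z.pull g a.1, cocycle_pull g.2 a.2⟩, h1.pull _, rfl, fun x => ?_⟩
  obtain ⟨k, hk⟩ := hS x x.2
  obtain ⟨Φ, h3, h4⟩ := hg x
  exact HdAt.lift hk h3 h4 (h2 ⟨_, h4.self_of_nhds.1⟩)

/-- **Maps with local analytic lifts preserve the Hodge type.** -/
theorem IsHd.pull_lift (hS : ∀ x ∈ S, ∃ k, MfdAt S k x) (_hS' : ∀ x ∈ S', ∃ k, MfdAt S' k x)
    (g : C(Y, Y')) (hg : Hb.HolM S π S' π' g) {c : H Y'} :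
    IsHd (fun x => tn S' x) π' p q c → IsHd (fun x => tn S x) π p q (H.map g c) :=
  IsHd.pull_lift' hS g hg

variable {n m : ℕ} [ChartedSpace (Fin n → ℂ) Y] [ChartedSpace (Fin m → ℂ) Y']

theorem Pres.hol_of_holM (h : Pres n π) (h' : Pres m π') {g : Y → Y'} (hc : Continuous g)
    (hg : Hb.HolM S π S' π' g) : Hol n m g :=
  h.hol h' hc fun y => (hg y).imp fun _ k => ⟨k.1, k.2.mono fun _ e => e.imp fun _ => Eq.symm⟩

theorem Pres.holM (h : Pres n π) (h' : Pres m π') {g : Y → Y'} (hg : Hol n m g) :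
    Hb.HolM S π S' π' g := fun x => by
  have := FiniteDimensional.complete ℂ W'
  obtain ⟨y, hy⟩ := h'.surj (g (π x))
  obtain ⟨σ, h1, -, h3⟩ := h'.sec y
  obtain ⟨r, h4, h5⟩ := h.prj x
  rw [hy] at h1 h3
  have h6 := hg.2 (π x)
  have h7 := (ev_chart (n := n) (π x)).self_of_nhds
  have h8 := h5.self_of_nhds
  refine ⟨fun w => σ (chartAt (Fin m → ℂ) (g (π x)) (g ((chartAt (Fin n → ℂ) (π x)).symm (r w)))),
    AnalyticAt.comp (g := σ) (by rw [h8, h7]; exact h1) (AnalyticAt.comp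
      (g := fun z => chartAt (Fin m → ℂ) (g (π x)) (g ((chartAt (Fin n → ℂ) (π x)).symm z)))
      (h8 ▸ h6) h4), ?_⟩
  filter_upwards [h5, h.cont.continuousAt.eventually (ev_chart (n := n) (π x)),
    (hg.1.comp h.cont).continuousAt.eventually h3] with z k1 k2 ⟨k3, k4⟩
  simp only [k1, k2]
  exact ⟨k3, k4.symm⟩

theorem Pres.mem_HN (h : Pres n π) {c : H Y} : c ∈ Hb.HN S π p q ↔ IsHg n p q c :=
  h.isHd_iff fun _ _ => subset_rfl

theorem Pres.mem_HT (h : Pres n π) {c : H Y} : c ∈ Hb.HT S π p q ↔ IsHg n p q c :=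
  Hb.HT_nat S π p q ▸ h.mem_HN

end lift

section quo

variable {A A' W W' : Type} [NormedRing A] [NormedAlgebra ℂ A] [NormedAddCommGroup W]
  [NormedSpace ℂ W] [NormedRing A'] [NormedAlgebra ℂ A'] [NormedAddCommGroup W'] [NormedSpace ℂ W']
  [FiniteDimensional ℂ A] [FiniteDimensional ℂ W] [FiniteDimensional ℂ A'] [FiniteDimensional ℂ W']
  {act : A → W → W} {act' : A' → W' → W'} {S : Set W} {S' : Set W'} {f : W → W'} {θ : A → A'}
  [IsAct act univ] [IsAct act' univ]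

theorem holM_of_hol (φ : Tq.Hol act act' S S' θ f) :
    Hb.HolM S (Quo.mk act) S' (Quo.mk act') φ.q := fun x => by
  obtain ⟨Φ, h1, h2⟩ := φ.an x x.2
  refine ⟨Φ, h1, ((ev_sub x.2 (p := fun s => f s = Φ s)).2
    (eventually_nhdsWithin_iff.1 h2)).mono fun y e => ?_⟩
  exact ⟨e ▸ φ.maps y.2, congrArg (Quo.mk act') (Subtype.ext e)⟩

/-- Equivariant holomorphic maps preserve the types. -/
theorem map_mem_QT {n : ℤ} (h : QM act S n) (φ : Tq.Hol act act' S S' θ f) {p q : ℤ}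
    {c : H (Quo act' S')} (hc : c ∈ Hb.QT act' S' p q) : H.map φ.q c ∈ Hb.QT act S p q := by
  unfold Hb.QT Hb.HT at hc ⊢
  split_ifs at hc ⊢ with h0
  · exact IsHd.pull_lift' (fun x hx => (h.mfd hx).imp fun _ k => k.2) _ (holM_of_hol φ) hc
  · rw [(Submodule.mem_bot _).1 hc, map_zero]
    exact zero_mem _

end quo

end Vale.Agent.P287Q.Mf
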