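import Vale.Agent.P287Q.Mf.Defs

/-!
# The chain rule for the form of a function of several points
-/

namespace Vale.Agent.P287Q.Mf

open Set Function Topology Filter
open scoped ContDiff ComplexConjugate

section real

variable {E W Y : Type} [NormedAddCommGroup E] [NormedSpace ℝ E] [NormedAddCommGroup W]
  [NormedSpace ℝ W] [NormedAddCommGroup Y] [NormedSpace ℝ Y]

theorem hasDerivAt_iter {k : ℕ} {g : Y → ℂ} {γ : ℝ → Y} {w : Y} (hγ : HasDerivAt γ w 0)
    (hg : ContDiffAt ℝ (k + 1 : ℕ) g (γ 0)) (m : Fin k → Y) :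
    HasDerivAt (fun t => iteratedFDeriv ℝ k g (γ t) m)
      (iteratedFDeriv ℝ (k + 1) g (γ 0) (Fin.cons w m)) 0 := by
  have h1 : DifferentiableAt ℝ (iteratedFDeriv ℝ k g) (γ 0) :=
    hg.differentiableAt_iteratedFDeriv (by exact_mod_cast Nat.lt_succ_self k)
  have h2 := (ContinuousMultilinearMap.apply ℝ (fun _ : Fin k => Y) ℂ m).hasFDerivAt.comp_hasDerivAt
    0 (h1.hasFDerivAt.comp_hasDerivAt 0 hγ)
  rw [iteratedFDeriv_succ_apply_left]
  exact h2

/-- A map applied in every slot. -/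
theorem slots {m : ℕ} {f : (Fin m → W) → ℂ} {r : E → W} (k : ℕ) : ∀ {I : Fin k → Fin m},
    Injective I → ∀ {y : Fin m → E}, (∀ i, ContDiffAt ℝ k r (y i)) →
    ContDiffAt ℝ k f (fun i => r (y i)) → ∀ v : Fin k → E,
    iteratedFDeriv ℝ k (fun z => f fun i => r (z i)) y (fun j => Pi.single (I j) (v j)) =
      iteratedFDeriv ℝ k f (fun i => r (y i))
        fun j => Pi.single (I j) (fderiv ℝ r (y (I j)) (v j)) := by
  induction k with
  | zero => intro I _ y _ _ v; rfl
  | succ k ih =>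
    intro I hI y hr hf v
    have hk : ((k + 1 : ℕ) : WithTop ℕ∞) ≠ ∞ := by exact_mod_cast ENat.natCast_ne_top (k + 1)
    have hk' : ((k : ℕ) : WithTop ℕ∞) ≤ (k + 1 : ℕ) := by exact_mod_cast Nat.le_succ k
    have hΦ : ContDiffAt ℝ (k + 1 : ℕ) (fun z : Fin m → E => fun i => r (z i)) y :=
      contDiffAt_pi.2 fun j => (hr j).comp y (contDiffAt_apply ℝ E j y)
    let γ : ℝ → Fin m → E := fun t => y + t • (Pi.single (I 0) (v 0) : Fin m → E)
    have h0 : γ 0 = y := by simp [γ]
    have hγ : HasDerivAt γ (Pi.single (I 0) (v 0)) 0 := by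
      have := ((hasDerivAt_id (0 : ℝ)).smul_const (Pi.single (I 0) (v 0) : Fin m → E)).const_add y
      rwa [one_smul] at this
    have hγ' : HasDerivAt (fun t i => r (γ t i)) (Pi.single (I 0) (fderiv ℝ r (y (I 0)) (v 0))) 0 := by
      refine hasDerivAt_pi.2 fun i => ?_
      have h1 : HasFDerivAt r (fderiv ℝ r (y i)) (γ 0 i) := by
        rw [h0]; exact ((hr i).differentiableAt (by simp)).hasFDerivAt
      have h2 := h1.comp_hasDerivAt 0 (hasDerivAt_pi.1 hγ i)
      by_cases e : i = I 0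
      · subst e; simpa [Function.comp_def] using h2
      · simpa [Pi.single_eq_of_ne e, Function.comp_def] using h2
    have ht : Tendsto γ (𝓝 0) (𝓝 y) := h0 ▸ hγ.continuousAt.tendsto
    have h1 := hasDerivAt_iter (g := fun z => f fun i => r (z i)) hγ (h0 ▸ hf.comp y hΦ)
      fun j => Pi.single (I j.succ) (v j.succ)
    have h2 := hasDerivAt_iter (g := f) hγ' (by simpa only [h0] using hf)
      fun j => Pi.single (I j.succ) (fderiv ℝ r (y (I j.succ)) (v j.succ))
    have h3 := h1.unique (h2.congr_of_eventuallyEq (by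
      filter_upwards [ht.eventually (eventually_all.2 fun j =>
        (continuous_apply j).continuousAt.eventually ((hr j).eventually hk)),
        ht.eventually (hΦ.continuousAt.eventually (hf.eventually hk))] with t h4 h5
      rw [ih (I := fun j => I j.succ) (hI.comp (Fin.succ_injective k))
        (fun j => (h4 j).of_le hk') (h5.of_le hk')]
      congr 1
      funext j
      rw [show γ t (I j.succ) = y (I j.succ) by
        simp [γ, Pi.single_eq_of_ne (hI.ne (Fin.succ_ne_zero j))]]))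
    simp only [h0] at h3
    rw [← Fin.cons_self_tail (fun j => Pi.single (I j) (v j) : Fin (k + 1) → Fin m → E),
      ← Fin.cons_self_tail
        (fun j => Pi.single (I j) (fderiv ℝ r (y (I j)) (v j)) : Fin (k + 1) → Fin m → W)]
    exact h3

theorem exists_contDiff [FiniteDimensional ℝ Y] {g : Y → ℂ} {y : Y}
    (hg : ∀ᶠ z in 𝓝 y, ContDiffAt ℝ ∞ g z) : ∃ f : Y → ℂ, ContDiff ℝ ∞ f ∧ f =ᶠ[𝓝 y] g := by
  obtain ⟨r, hr, h1⟩ := Metric.nhds_basis_closedBall.eventually_iff.1 hg
  let φ : ContDiffBump y := ⟨r / 2, r, by positivity, by linarith⟩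
  refine ⟨fun z => φ z • g z, contDiff_iff_contDiffAt.2 fun z => ?_,
    φ.eventuallyEq_one.mono fun z hz => by simp [hz]⟩
  by_cases hz : z ∈ Metric.closedBall y r
  · exact φ.contDiff.contDiffAt.smul (h1 hz)
  · refine contDiffAt_const.congr_of_eventuallyEq (f := fun _ => 0) ?_
    filter_upwards [Metric.isClosed_closedBall.isOpen_compl.mem_nhds hz] with w hw
    rw [φ.zero_of_le_dist (le_of_lt (not_le.1 hw)), zero_smul]

end real

variable {E W : Type} [NormedAddCommGroup E] [NormedSpace ℂ E] [NormedAddCommGroup W]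
  [NormedSpace ℂ W] {k : ℕ} {x : E}

theorem frm_congr {f g : (Fin (k + 1) → E) → ℂ} (h : f =ᶠ[𝓝 fun _ => x] g) :
    frm f x = frm g x := by
  funext v
  simp only [frm, (h.iteratedFDeriv ℝ k).eq_of_nhds]

/-- **Chain rule.** -/
theorem frm_comp {f : (Fin (k + 1) → W) → ℂ} {r : E → W} (hr : ContDiffAt ℝ ∞ r x)
    (hf : ContDiffAt ℝ ∞ f fun _ => r x) (v : Fin k → E) :
    frm (fun z => f fun i => r (z i)) x v = frm f (r x) fun i => fderiv ℝ r x (v i) := by
  have hk : ((k : ℕ) : WithTop ℕ∞) ≤ ∞ := by exact_mod_cast le_top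
  refine Finset.sum_congr rfl fun σ _ => ?_
  rw [slots k (Fin.succ_injective k) (y := fun _ => x) (fun _ => hr.of_le hk) (hf.of_le hk)]

theorem frm_an [CompleteSpace W] {f : (Fin (k + 1) → W) → ℂ} {r : E → W} (hr : AnalyticAt ℂ r x)
    (hf : ContDiffAt ℝ ∞ f fun _ => r x) (v : Fin k → E) :
    frm (fun z => f fun i => r (z i)) x v = frm f (r x) fun i => fderiv ℂ r x (v i) := by
  rw [frm_comp (hr.contDiffAt.restrict_scalars ℝ) hf, hr.differentiableAt.fderiv_restrictScalars ℝ]
  rfl

/-- A smooth function composed with a holomorphic germ in every slot. -/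
theorem exists_comp [FiniteDimensional ℂ E] [CompleteSpace W] {f : (Fin (k + 1) → W) → ℂ}
    {r : E → W} (hr : AnalyticAt ℂ r x) (hf : ContDiff ℝ ∞ f) : ∃ g : (Fin (k + 1) → E) → ℂ,
      ContDiff ℝ ∞ g ∧ (∀ᶠ z in 𝓝 fun _ => x, g z = f fun i => r (z i)) ∧
      ∀ v, frm g x v = frm f (r x) fun i => fderiv ℂ r x (v i) := by
  obtain ⟨g, h1, h2⟩ := exists_contDiff (g := fun z : Fin (k + 1) → E => f fun i => r (z i))
    (y := fun _ => x) (by
      filter_upwards [eventually_all.2 fun j =>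
        (continuous_apply j).continuousAt.eventually hr.eventually_analyticAt] with z hz
      exact hf.contDiffAt.comp z (contDiffAt_pi.2 fun j =>
        ((hz j).contDiffAt.restrict_scalars ℝ).comp z (contDiffAt_apply ℝ E j z)))
  exact ⟨g, h1, h2, fun v => by rw [frm_congr h2, frm_an hr hf.contDiffAt]⟩

end Vale.Agent.P287Q.Mf
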