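import Vale.Agent.P287Q.Mf.Api
import Vale.Agent.P287Q.Hb.PV
import Vale.Agent.P287Q.Us.Defs
import Vale.Agent.P287Q.Sf.Top
import Vale.Agent.P287Q.Int.All

/-!
# The theorem on surfaces, for orbit manifolds
-/

set_option linter.unusedSectionVars false
set_option linter.style.haveILetI false

namespace Vale.Agent.P287Q.Mf

open Set Function Topology Filter P291Z P269 P269.Holo P269.Mono P269.Tq
open P287Q.Zc (Lk)
open scoped ContDiff Manifold

/-- The theorem on surfaces. -/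
def StSf : Prop := ∀ (X : Type) [MetricSpace X] [CompactSpace X] [ConnectedSpace X]
  [ChartedSpace (Fin 2 → ℂ) X] [IsManifold 𝓘(ℂ, Fin 2 → ℂ) ω X], Sf.StMain X

theorem StSf.of_nice (h : StSf) (X : Type) [TopologicalSpace X] [Nice X] [CompactSpace X]
    [ConnectedSpace X] [ChartedSpace (Fin 2 → ℂ) X] [IsManifold 𝓘(ℂ, Fin 2 → ℂ) ω X] :
    Sf.StMain X :=
  letI := TopologicalSpace.metrizableSpaceMetric X
  h X

variable {A W : Type} [NormedRing A] [NormedAlgebra ℂ A] [NormedAddCommGroup W] [NormedSpace ℂ W]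
  [FiniteDimensional ℂ A] [FiniteDimensional ℂ W] {act : A → W → W} {S : Set W} [IsAct act univ]

theorem top_qm (h : QM act S 2) [ConnectedSpace (Quo act S)]
    {C : LinearMap.BilinForm ℤ (Lk (Quo act S) 2)}
    (hC : ∀ x y, (C x y : ℂ) = h.ps.J (x.1 * y.1)) :
    haveI := h.fp
    letI := cs (n := 2) h.dim
    Sf.Top h.ps.J C := by
  have := h.fp
  have := h.cpt
  letI := cs (n := 2) h.dim
  refine Sf.top_of Zc.stLat _ (Zc.oriZ_qm h) (fun x a h1 h2 h3 => ?_) C hC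
  refine (one_mul _).symm.trans (val_fnd (n := 2) h.dim x a 1 h1 ?_ h3)
  rwa [cch, zero_add, OpenPartialHomeomorph.left_inv _ (mem_chart_source _ x)]

/-- **Surfaces with `p_g = 1`.** -/
theorem surf (hM : StSf) (h : QM act S 2) [ConnectedSpace (Quo act S)]
    {C : LinearMap.BilinForm ℤ (Lk (Quo act S) 2)}
    (hC : ∀ x y, (C x y : ℂ) = h.ps.J (x.1 * y.1)) {w : H (Quo act S)} (h0 : w ≠ 0)
    (hw : Hb.HN S (Quo.mk act) 2 0 = ℂ ∙ w) (k : Lk (Quo act S) 2) (hk : h.ps.J (w * k.1) = 0)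
    (hk' : 0 < C k k) :
    ∃ (M : Submodule ℤ (Lk (Quo act S) 2)) (n : ℕ), n ≤ 19 ∧ Bijective (C.restrict M) ∧
      Lat.Sig (C.restrict M) 3 n ∧
      ∀ x, (∀ y : Lk (Quo act S) 2, h.ps.J (w * y.1) = 0 → C y x = 0) → x ∈ M := by
  have := h.fp
  have := h.cpt
  letI := cs (n := 2) h.dim
  have := isManifold (n := 2) h.dim
  have hp := pres (n := 2) h.dim
  refine hM.of_nice _ _ C (top_qm h hC) w h0
    (hp.mem_HN.1 (hw ▸ Submodule.mem_span_singleton_self w)) (fun c hc => ?_) k hk hk'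
  obtain ⟨t, ht⟩ := Submodule.mem_span_singleton.1 (hw ▸ hp.mem_HN.2 hc)
  exact ⟨t, ht.symm⟩

theorem surf_var (hM : StSf) (V : Var 2) {C : LinearMap.BilinForm ℤ (Lk (Spc V.π V.A) 2)}
    (hC : ∀ x y, (C x y : ℂ) = Loc.intg (fnd (scl V.π) V.A) (x.1 * y.1)) {w : H (Spc V.π V.A)}
    (h0 : w ≠ 0) (hw : Hb.HN V.A (Quo.mk (scl V.π)) 2 0 = ℂ ∙ w) (k : Lk (Spc V.π V.A) 2)
    (hk : Loc.intg (fnd (scl V.π) V.A) (w * k.1) = 0) (hk' : 0 < C k k) :
    ∃ (M : Submodule ℤ (Lk (Spc V.π V.A) 2)) (n : ℕ), n ≤ 19 ∧ Bijective (C.restrict M) ∧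
      Lat.Sig (C.restrict M) 3 n ∧ ∀ x, (∀ y : Lk (Spc V.π V.A) 2,
        Loc.intg (fnd (scl V.π) V.A) (w * y.1) = 0 → C y x = 0) → x ∈ M :=
  haveI := isAct_scl V.π
  haveI := Subtype.connectedSpace V.conn
  haveI : ConnectedSpace (Spc V.π V.A) := mk_surj.connectedSpace continuous_mk
  surf hM V.pv.qm hC h0 hw k hk hk'

end Vale.Agent.P287Q.Mf
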