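import Vale.Agent.P287Q.Mf.Slot
import Vale.Agent.P287Q.Pv.Prm
import Vale.Agent.P291Z.T7

/-!
# Hodge types in charts and on the cone agree; holomorphic pull-back
-/

set_option linter.unusedSectionVars false

namespace Vale.Agent.P287Q.Mf

open Set Function Topology Filter P291Z
open scoped ContDiff ComplexConjugate Manifold

variable {E W : Type} [NormedAddCommGroup E] [NormedSpace ℂ E] [NormedAddCommGroup W]
  [NormedSpace ℂ W] [FiniteDimensional ℂ E] [FiniteDimensional ℂ W] {X Y Z : Type}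
  [TopologicalSpace X] [TopologicalSpace Y] [TopologicalSpace Z] {p q n m l : ℕ}

theorem tendsto_diag {κ : Type} {f : X → Y} {x : X} {y : Y} (h : Tendsto f (𝓝 x) (𝓝 y)) :
    Tendsto (fun (z : κ → X) i => f (z i)) (𝓝 fun _ => x) (𝓝 fun _ => y) :=
  tendsto_pi_nhds.2 fun i => h.comp (continuous_apply i).continuousAt

theorem ev_diag {κ : Type} [Finite κ] {x : X} {P : X → Prop} (h : ∀ᶠ z in 𝓝 x, P z) :
    ∀ᶠ z : κ → X in 𝓝 fun _ => x, ∀ i, P (z i) :=
  eventually_all.2 fun i => (continuous_apply i).continuousAt.eventually h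

/-- Pull-back along a map which is holomorphic in coordinates. -/
theorem HgAt.pull {a : Coch Y} {e : Y → W} {e' : X → E} {f : X → Y} {x : X}
    (h : HgAt p q a e (f x)) (hf : ContinuousAt f x) (he : ContinuousAt e' x) {r : E → W}
    (hr : AnalyticAt ℂ r (e' x)) (hc : ∀ᶠ z in 𝓝 x, e (f z) = r (e' z)) :
    HgAt p q (pull f a) e' x := by
  have := FiniteDimensional.complete ℂ W
  obtain ⟨F, h1, h2, h3⟩ := h
  obtain ⟨g, h4, h5, h6⟩ := exists_comp hr h1
  refine ⟨g, h4, ?_, fun t v => ?_⟩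
  · filter_upwards [(tendsto_diag hf).eventually h2, (tendsto_diag he).eventually h5, ev_diag hc]
      with z h7 h8 h9
    rw [h8, ← funext h9, ← h7]
    exact congrArg a.1 (List.map_ofFn ..)
  · rw [h6, h6, ← hc.self_of_nhds, ← h3]
    simp only [Pi.smul_apply, map_smul]
    rfl

/-- Change of coordinates. -/
theorem HgAt.chg {a : Coch X} {e : X → W} {e' : X → E} {x : X} (h : HgAt p q a e x)
    (he : ContinuousAt e' x) {r : E → W} (hr : AnalyticAt ℂ r (e' x))
    (hc : ∀ᶠ z in 𝓝 x, e z = r (e' z)) : HgAt p q a e' x := by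
  have := HgAt.pull (f := id) h continuousAt_id he hr hc
  rwa [show P291Z.pull id a = a from Subtype.ext (funext fun l => congrArg a.1 l.map_id)] at this

variable {A : Set W} {T : W → Set W} {π : A → X}

theorem HgAt.hdAt {a : Coch X} {e : X → E} {y : A} (h : HgAt p q a e (π y))
    (hπ : ContinuousAt π y) {r : W → E} (hr : AnalyticAt ℂ r y)
    (hc : ∀ᶠ z in 𝓝 y, r z.1 = e (π z)) : HdAt T π p q a y := by
  obtain ⟨g, h1, h2, h3⟩ := h.pull hπ continuous_subtype_val.continuousAt hr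
    (hc.mono fun _ e => e.symm)
  refine ⟨g, h1, h2.mono fun z hz => ?_, fun t v _ => h3 t v⟩
  rw [← hz]
  exact congrArg a.1 (List.map_ofFn ..).symm

theorem HdAt.hgAt {a : Coch X} {e : X → E} {y : A} (h : HdAt T π p q a y)
    (he : ContinuousAt e (π y)) {σ : E → W} (hσ : AnalyticAt ℂ σ (e (π y))) (h0 : σ (e (π y)) = y)
    (hs : ∀ᶠ x in 𝓝 (π y), ∃ h : σ (e x) ∈ A, π ⟨_, h⟩ = x)
    (hT : ∀ v, fderiv ℂ σ (e (π y)) v ∈ T y) : HgAt p q a e (π y) := by
  classical
  have := FiniteDimensional.complete ℂ W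
  obtain ⟨F, h1, h2, h3⟩ := h
  obtain ⟨g, h4, h5, h6⟩ := exists_comp hσ h1
  let s : X → A := fun x => if h : σ (e x) ∈ A then ⟨_, h⟩ else y
  have h7 : ∀ᶠ x in 𝓝 (π y), (s x).1 = σ (e x) ∧ π (s x) = x := hs.mono fun x ⟨k1, k2⟩ => by
    simp only [s, dif_pos k1, k2, and_self]
  have h8 : Tendsto s (𝓝 (π y)) (𝓝 y) := tendsto_subtype_rng.2
    ((h0 ▸ hσ.continuousAt.tendsto.comp he.tendsto).congr' (h7.mono fun _ k => k.1.symm))
  refine ⟨g, h4, ?_, fun t v => ?_⟩
  · filter_upwards [(tendsto_diag h8).eventually h2, (tendsto_diag he).eventually h5, ev_diag h7]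
      with z k1 k2 k3
    rw [k2, ← funext fun i => (k3 i).1, ← k1, funext fun i => (k3 i).2]
  · rw [h6, h6, h0, ← h3 _ _ fun i => hT _]
    simp only [Pi.smul_apply, map_smul]
    rfl

variable [ChartedSpace (Fin n → ℂ) X] [ChartedSpace (Fin m → ℂ) Y] [ChartedSpace (Fin l → ℂ) Z]

theorem cont_chart (x : X) : ContinuousAt (chartAt (Fin n → ℂ) x) x :=
  (chartAt (Fin n → ℂ) x).continuousAt (mem_chart_source _ x)

theorem Pres.hgAt_iff (h : Pres n π) (hT : ∀ y ∈ A, (tn A y : Set W) ⊆ T y) {a : Coch X} :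
    (∀ y, HdAt T π p q a y) ↔ ∀ x, HgAt p q a (chartAt (Fin n → ℂ) x) x := by
  refine ⟨fun H x => ?_, fun H y => ?_⟩
  · obtain ⟨y, rfl⟩ := h.surj x
    obtain ⟨σ, h1, h2, h3⟩ := h.sec y
    refine (H y).hgAt (cont_chart _) h1 h2 h3 fun v => hT _ y.2 (h2 ▸ fderiv_mem_tn h1 ?_ v)
    rw [← (chartAt (Fin n → ℂ) (π y)).map_nhds_eq (mem_chart_source _ _), eventually_map]
    exact h3.mono fun _ k => k.1
  · obtain ⟨r, h1, h2⟩ := h.prj y
    exact (H _).hdAt h.cont.continuousAt h1 h2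

/-- **The Hodge type on the cone is the Hodge type in the charts.** -/
theorem Pres.isHd_iff (h : Pres n π) (hT : ∀ y ∈ A, (tn A y : Set W) ⊆ T y) {c : H X} :
    IsHd T π p q c ↔ IsHg n p q c :=
  exists_congr fun _ => and_congr_right' (and_congr_right' (h.hgAt_iff hT))

/-! ## Holomorphic maps -/

theorem Hol.cont {f : X → Y} (h : Hol n m f) : Continuous f := h.1

theorem ev_chart (x : X) : ∀ᶠ z in 𝓝 x,
    (chartAt (Fin n → ℂ) x).symm (chartAt (Fin n → ℂ) x z) = z := by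
  filter_upwards [chart_source_mem_nhds (Fin n → ℂ) x] with z hz
    using OpenPartialHomeomorph.left_inv _ hz

theorem HgAt.hol {f : X → Y} (hf : Hol n m f) {a : Coch Y} {x : X}
    (h : HgAt p q a (chartAt (Fin m → ℂ) (f x)) (f x)) :
    HgAt p q (P291Z.pull f a) (chartAt (Fin n → ℂ) x) x :=
  h.pull hf.1.continuousAt (cont_chart x) (hf.2 x) ((ev_chart (n := n) x).mono fun z hz => by
    simp only [hz])

/-- **Holomorphic maps preserve the Hodge type.** -/
theorem IsHg.map {f : C(X, Y)} (hf : Hol n m f) {c : H Y} (h : IsHg m p q c) :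
    IsHg n p q (H.map f c) := by
  obtain ⟨a, h1, rfl, h2⟩ := h
  exact ⟨⟨P291Z.pull f a.1, cocycle_pull f.2 a.2⟩, h1.pull _, rfl, fun x => (h2 _).hol hf⟩

theorem Hol.id : Hol n n (fun x : X => x) := ⟨continuous_id, fun x => analyticAt_id.congr (by
  filter_upwards [chart_target_mem_nhds (Fin n → ℂ) x] with z hz
    using (OpenPartialHomeomorph.right_inv _ hz).symm)⟩

theorem tendsto_symm (x : X) :
    Tendsto (chartAt (Fin n → ℂ) x).symm (𝓝 (chartAt (Fin n → ℂ) x x)) (𝓝 x) :=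
  (chartAt (Fin n → ℂ) x).tendsto_symm (mem_chart_source _ x)

theorem Hol.comp {f : X → Y} {g : Y → Z} (hg : Hol m l g) (hf : Hol n m f) :
    Hol n l fun x => g (f x) := ⟨hg.1.comp hf.1, fun x => by
  refine (AnalyticAt.comp (by
    rw [OpenPartialHomeomorph.left_inv _ (mem_chart_source _ x)]; exact hg.2 (f x)) (hf.2 x)).congr ?_
  filter_upwards [((hf.1.tendsto x).comp (tendsto_symm (n := n) x)).eventually
    (ev_chart (n := m) (f x))] with z hz
  exact congrArg (fun w => chartAt (Fin l → ℂ) (g (f x)) (g w)) hz⟩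

theorem hol_iff {f : X → Y} : Hol n m f ↔ ContMDiff 𝓘(ℂ, Fin n → ℂ) 𝓘(ℂ, Fin m → ℂ) ω f := by
  refine ⟨fun h x => contMDiffAt_iff.2 ⟨h.1.continuousAt, ?_⟩, fun h => ⟨h.continuous, fun x => ?_⟩⟩
  · simpa [contDiffWithinAt_univ, Function.comp_def] using (h.2 x).contDiffAt
  · have := (contMDiffAt_iff.1 (h x)).2
    simp only [modelWithCornersSelf_coe, range_id, contDiffWithinAt_univ] at this
    simpa [Function.comp_def] using this.analyticAt

/-- A map which is covered, locally, by holomorphic maps of the cones. -/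
theorem Pres.hol {A' : Set E} {π' : A' → Y} (h : Pres n π) (h' : Pres m π') {f : X → Y}
    (hf : Continuous f) (hc : ∀ y : A, ∃ Φ : W → E, AnalyticAt ℂ Φ y ∧
      ∀ᶠ z in 𝓝 y, ∃ k : Φ z.1 ∈ A', π' ⟨_, k⟩ = f (π z)) : Hol n m f := ⟨hf, fun x => by
  classical
  obtain ⟨y, rfl⟩ := h.surj x
  obtain ⟨σ, h1, h2, h3⟩ := h.sec y
  obtain ⟨Φ, h4, h5⟩ := hc y
  obtain ⟨k, h6⟩ := h5.self_of_nhds
  obtain ⟨r, h7, h8⟩ := h'.prj ⟨_, k⟩
  rw [h6] at h8
  let s : X → A := fun x => if h : σ (chartAt (Fin n → ℂ) (π y) x) ∈ A then ⟨_, h⟩ else y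
  have h9 : ∀ᶠ x in 𝓝 (π y), (s x).1 = σ (chartAt (Fin n → ℂ) (π y) x) ∧ π (s x) = x :=
    h3.mono fun x ⟨k1, k2⟩ => by simp only [s, dif_pos k1, k2, and_self]
  have h10 : Tendsto s (𝓝 (π y)) (𝓝 y) := tendsto_subtype_rng.2
    ((h2 ▸ h1.continuousAt.tendsto.comp (cont_chart _).tendsto).congr'
      (h9.mono fun _ k => k.1.symm))
  let t : A → A' := fun z => if h : Φ z.1 ∈ A' then ⟨_, h⟩ else ⟨_, k⟩
  have h11 : ∀ᶠ z in 𝓝 y, (t z).1 = Φ z.1 ∧ π' (t z) = f (π z) :=
    h5.mono fun x ⟨k1, k2⟩ => by simp only [t, dif_pos k1, k2, and_self]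
  have h12 : Tendsto t (𝓝 y) (𝓝 ⟨_, k⟩) := tendsto_subtype_rng.2
    ((h4.continuousAt.comp continuous_subtype_val.continuousAt).tendsto.congr'
      (h11.mono fun _ k => k.1.symm))
  refine (AnalyticAt.comp (g := r) (by rwa [Function.comp, h2])
    (AnalyticAt.comp (g := Φ) (by rwa [h2]) h1)).congr ?_
  filter_upwards [(tendsto_symm (n := n) (π y)).eventually
    (h9.and (h10.eventually (h11.and (h12.eventually h8)))),
    chart_target_mem_nhds (Fin n → ℂ) (π y)] with z ⟨k1, k2, k3⟩ k4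
  rw [OpenPartialHomeomorph.right_inv _ k4] at k1
  rw [← k1.2, ← k2.2, ← k3, k2.1, k1.1]
  rfl⟩

variable [IsManifold 𝓘(ℂ, Fin n → ℂ) ω X]

theorem an_trans {e e' : OpenPartialHomeomorph X (Fin n → ℂ)} (he : e ∈ atlas (Fin n → ℂ) X)
    (he' : e' ∈ atlas (Fin n → ℂ) X) {x : X} (hx : x ∈ e.source) (hx' : x ∈ e'.source) :
    AnalyticAt ℂ (fun z => e' (e.symm z)) (e x) := by
  have h := (contDiffGroupoid ω 𝓘(ℂ, Fin n → ℂ)).compatible he he'
  rw [contDiffGroupoid, mem_groupoid_of_pregroupoid] at h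
  have h1 : e x ∈ (e.symm ≫ₕ e').source :=
    ⟨e.map_source hx, show e.symm (e x) ∈ e'.source by rwa [e.left_inv hx]⟩
  have h2 : ContDiffOn ℂ ω (e.symm ≫ₕ e') (e.symm ≫ₕ e').source := by
    simpa only [contDiffPregroupoid, modelWithCornersSelf_coe, modelWithCornersSelf_coe_symm,
      preimage_id_eq, id_eq, range_id, inter_univ, comp_id, id_comp] using h.1
  exact (h2.contDiffAt ((e.symm ≫ₕ e').open_source.mem_nhds h1)).analyticAt

/-- **Independence of the chart.** -/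
theorem HgAt.chart {a : Coch X} {e e' : OpenPartialHomeomorph X (Fin n → ℂ)}
    (he : e ∈ atlas (Fin n → ℂ) X) (he' : e' ∈ atlas (Fin n → ℂ) X) {x : X} (hx : x ∈ e.source)
    (hx' : x ∈ e'.source) (h : HgAt p q a e x) : HgAt p q a e' x :=
  h.chg (e'.continuousAt hx') (an_trans he' he hx' hx) (by
    filter_upwards [e'.open_source.mem_nhds hx'] with z hz
    rw [e'.left_inv hz])

end Vale.Agent.P287Q.Mf
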